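import Crest.Agent.X212.Taub88.Defs
import Crest.Agent.X212.Taub88.Bas
import Crest.Agent.X212.Taub88.Main
import Crest.Agent.X212.Taub88.Reg
import Crest.Agent.X212.Taub88.Can
import Crest.Agent.X212.Taub88.Leaf
import Crest.Agent.X212.Tb46.Alg
import Crest.Agent.X212.Tb46.Compat
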